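import Vale.Agent.P154.Assembly.Thresholds
import Vale.Agent.P154.NegEnd.Range
import Vale.Agent.P154.NegEnd2.Below
import Vale.Agent.P154.NegTrans.SmallB
import Vale.Agent.P154.NegTrans.SmallC
import Vale.Agent.P154.NegTrans.SmallD

/-!
P154: the three-state threshold on Poisson trees for `lam ∈ [-497/1000, 1]`.
-/

namespace Vale.Agent.P154.Assembly

theorem poisson_three_range (lam : ℝ) (h0 : -(497 / 1000) ≤ lam) (h1 : lam ≤ 1) (d : ℝ)
    (hd : 0 < d) :
    (Reconstructs (aPoisson 3 lam d) ↔ 1 < d * lam ^ 2) ∧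
    (NonReconstructs (aPoisson 3 lam d) ↔ d * lam ^ 2 ≤ 1) := by
  have hq : (2 : ℕ) ≤ 3 := by norm_num
  have hl : -(1 / (((3 : ℕ) : ℝ) - 1)) ≤ lam := by norm_num at h0 ⊢; linarith
  refine equivalences (fun hle => ?_) (KS.ks_poisson hq hl h1 d hd)
  rcases lt_or_ge lam 0 with hneg | hpos
  swap
  · exact nonReconstructs_poisson_of_ferroCert Ferro3.ferroCert_three hpos h1 hd hle
      (fun n T => advantage_eq hq lam hl h1 n T)
  rcases lt_or_ge lam (-(473 / 1000)) with hlow | hhigh
  swap
  · exact NegEnd.nonReconstructs_poisson_range lam hhigh hneg d hd.le hle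
  refine NegEnd2.nonReconstructs_of_small h0 hlow.le hl h1 (n₀ := 171) (fun n hn => ?_) hd.le hle
  rcases le_or_gt lam (-(49 / 100)) with hB | hB
  · exact NegTrans.tau_smallB n (by omega) lam hl h1 (by linarith) hB
  rcases le_or_gt lam (-(12 / 25)) with hC | hC
  · exact NegTrans.tau_smallC n hn lam hl h1 hB.le hC
  · refine (NegTrans.tau_smallD n (by omega) lam hl h1 hC.le hlow.le).trans ?_
    exact mul_le_mul_of_nonneg_right (by norm_num) (sq_nonneg lam)

end Vale.Agent.P154.Assembly
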