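import Vale.Agent.P154.Ferro3.Main
import Vale.Agent.P154.FerroPoisson
import Vale.Agent.P154.Tree
import Vale.Agent.P154.KS
import Vale.Agent.P154.NegMid.Mid
import Vale.Agent.P154.D4.Glue

/-!
P154: thresholds from the certificates. A ferromagnetic certificate gives the threshold on both
tree models for `lam ∈ [0, 1]`; with the transient bound at the critical colouring channel
`q = 3`, `d = 4`, `lam = -1/2`, the regular-tree threshold for three states holds on `[-1/2, 1]`.
-/

namespace Vale.Agent.P154.Assembly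

open Filter

theorem not_reconstructs {a : ℕ → ℝ} (h : NonReconstructs a) : ¬ Reconstructs a := by
  rintro ⟨ε, hε, hle⟩
  exact hε.not_ge (ge_of_tendsto h (Eventually.of_forall hle))

theorem equivalences {a : ℕ → ℝ} {x : ℝ} (hN : x ≤ 1 → NonReconstructs a)
    (hR : 1 < x → Reconstructs a) :
    (Reconstructs a ↔ 1 < x) ∧ (NonReconstructs a ↔ x ≤ 1) := by
  refine ⟨⟨fun h => ?_, hR⟩, ⟨fun h => ?_, hN⟩⟩
  · by_contra hc
    exact not_reconstructs (hN (not_lt.1 hc)) h
  · by_contra hc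
    exact not_reconstructs h (hR (not_le.1 hc))

theorem thresholds_of_ferroCert {q : ℕ} (hq : 2 ≤ q) (hcert : FerroCert q hq) (lam : ℝ)
    (h0 : 0 ≤ lam) (h1 : lam ≤ 1) :
    (∀ d : ℕ, 2 ≤ d →
      (Reconstructs (aRegular q lam d) ↔ 1 < (d : ℝ) * lam ^ 2) ∧
      (NonReconstructs (aRegular q lam d) ↔ (d : ℝ) * lam ^ 2 ≤ 1)) ∧
    (∀ d : ℝ, 0 < d →
      (Reconstructs (aPoisson q lam d) ↔ 1 < d * lam ^ 2) ∧
      (NonReconstructs (aPoisson q lam d) ↔ d * lam ^ 2 ≤ 1)) := by
  have hl := lam_lower hq h0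
  exact ⟨fun d hd => equivalences
      (fun hle => nonReconstructs_regular_of_cert hq hcert lam h0 h1 d hd hle)
      (KS.ks_regular hq hl h1 d),
    fun d hd => equivalences
      (fun hle => nonReconstructs_poisson_of_ferroCert hcert h0 h1 hd hle
        (fun n T => advantage_eq hq lam hl h1 n T))
      (KS.ks_poisson hq hl h1 d hd)⟩

theorem regular_three_of_transient (h : D4.Transient) (lam : ℝ) (h0 : -(1 / 2) ≤ lam)
    (h1 : lam ≤ 1) (d : ℕ) (hd : 2 ≤ d) :
    (Reconstructs (aRegular 3 lam d) ↔ 1 < (d : ℝ) * lam ^ 2) ∧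
    (NonReconstructs (aRegular 3 lam d) ↔ (d : ℝ) * lam ^ 2 ≤ 1) := by
  have hq : (2 : ℕ) ≤ 3 := by norm_num
  have hl : -(1 / (((3 : ℕ) : ℝ) - 1)) ≤ lam := by norm_num at h0 ⊢; linarith
  refine equivalences (fun hle => ?_) (KS.ks_regular hq hl h1 d)
  rcases lt_or_ge lam 0 with hneg | hpos
  · rcases le_or_gt d 4 with h4 | h4
    · exact D4.nonReconstructs_four h d h4 lam h0 hneg.le
    · refine (NegMid.nonReconstructs_mid lam ?_ hneg).1 d hle
      have h5 : (5 : ℝ) ≤ d := by exact_mod_cast h4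
      have hm : (5 : ℝ) * lam ^ 2 ≤ (d : ℝ) * lam ^ 2 :=
        mul_le_mul_of_nonneg_right h5 (sq_nonneg lam)
      have hs : |lam| ≤ √(1 / 5) := by
        rw [← Real.sqrt_sq_eq_abs]
        exact Real.sqrt_le_sqrt (by linarith)
      rw [Real.sqrt_div (by norm_num : (0 : ℝ) ≤ 1), Real.sqrt_one] at hs
      linarith [abs_le.1 hs]
  · exact nonReconstructs_regular_of_cert hq Ferro3.ferroCert_three lam hpos h1 d hd hle

end Vale.Agent.P154.Assembly
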